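import Vale.Agent.P011.D4I.H837.ExU
import Vale.Agent.P011.D4T.H637.Tor
import Vale.Agent.P011.D4I.H691.Tr
import Vale.Agent.P011.D4I.H657.Bas
import Vale.Agent.P011.D4I.H68.AutI
import Vale.Agent.P011.D4I.H68.Nf

/-!
Block D4I: the torus (row F1b).
-/

open NumberField Topology

namespace Vale.Agent.P011.D4I

open Vale.Agent.P011.Arith Vale.Agent.P011.MPQ Vale.Agent.P011.D4 Vale.Agent.P011.D4.Oct
  Vale.Agent.P011.E6 Vale.Agent.P011.D4T

section alg

variable {k L E : Type} [Field k] [Field L] [Field E] [Algebra k L] [Algebra k E] [Algebra L E]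
  [IsScalarTower k L E] [NeZero (2 : E)] {ρ σ ι : E ≃ₐ[k] E} {α : E}
  {a b c : kˣ} {q : Lˣ} (H : HyI ρ σ ι α a b c q)

include H

/-- The short subgroup, as a homomorphism. -/
theorem H837.exists_shortHom : ∃ s : SL1 (up L a) (q * up L b) →* GTI ρ σ ι α a b c q,
    ∀ x y, (s x).1 y = shortFun ρ (psiL α q ((x : (Qt (up L a) (q * up L b))ˣ) :
      Qt (up L a) (q * up L b))) y := by
  choose S hS1 hS2 using exists_short (c := c) H
  have hmul : ∀ x y, S (x * y) = S x * S y := by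
    intro x y
    apply LinearEquiv.ext
    intro z
    rw [LinearEquiv.mul_apply, hS2, hS2, hS2, ← Em.shortFun_mul, ← H.psiL_mul]
    rfl
  exact ⟨MonoidHom.mk' (fun x => ⟨S x, hS1 x⟩) fun x y => Subtype.ext (hmul x y),
    fun x y => hS2 x y⟩

end alg

section arith

variable {k L E : Type} [Field k] [NumberField k] [Field L] [NumberField L] [Field E]
  [Algebra k L] [Algebra k E] [Algebra L E]
  [IsScalarTower k L E] [NeZero (2 : E)] {ρ σ ι : E ≃ₐ[k] E} {α : E}
  {a b c : kˣ} {q : Lˣ} (H : HyI ρ σ ι α a b c q)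

include H

/-- The quaternion algebra `Q₁` is a division algebra. -/
theorem H837.aniso1 : Aniso (up L a) (q * up L b) := by
  obtain ⟨τ, ha, hb, -⟩ := exists_dfn H.hdiv
  obtain ⟨w, hw⟩ := E6I.exists_real_over (L := L) H.h3 τ
  have hw' : ∀ t : k, w (algebraMap k L t) = τ t := fun t => by
    rw [← hw]; rfl
  have hwa : w (algebraMap k L a) < 0 := by rw [hw']; exact ha
  have hwb : w (algebraMap k L b) < 0 := by rw [hw']; exact hb
  have hq : 0 < w q := (H.hreL w hwa).2.2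
  intro x hx
  have h1 := congrArg w hx
  have e1 : ((up L a : Lˣ) : L) = algebraMap k L a := rfl
  have e2 : ((q * up L b : Lˣ) : L) = q * algebraMap k L b := rfl
  simp only [nrd, e1, e2, map_add, map_sub, map_mul, map_pow, map_zero] at h1
  have g1 : 0 ≤ (-w (algebraMap k L a)) * w x.imI ^ 2 := by
    have := neg_pos.2 hwa
    positivity
  have g2 : 0 ≤ w q * (-w (algebraMap k L b)) * w x.imJ ^ 2 := by
    have := neg_pos.2 hwb
    positivity
  have g3 : 0 ≤ w q * (-w (algebraMap k L a)) * (-w (algebraMap k L b)) * w x.imK ^ 2 := by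
    have := neg_pos.2 hwb
    have := neg_pos.2 hwa
    positivity
  have g0 : 0 ≤ w x.re ^ 2 := sq_nonneg _
  have z0 : w x.re ^ 2 = 0 := by nlinarith
  have z1 : (-w (algebraMap k L a)) * w x.imI ^ 2 = 0 := by nlinarith
  have z2 : w q * (-w (algebraMap k L b)) * w x.imJ ^ 2 = 0 := by nlinarith
  have z3 : w q * (-w (algebraMap k L a)) * (-w (algebraMap k L b)) * w x.imK ^ 2 = 0 := by
    nlinarith
  have n1 : -w (algebraMap k L a) ≠ 0 := (neg_pos.2 hwa).ne'
  have n2 : -w (algebraMap k L b) ≠ 0 := (neg_pos.2 hwb).ne'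
  have y0 : x.re = 0 := by
    rw [pow_eq_zero_iff two_ne_zero, map_eq_zero] at z0
    exact z0
  have y1 : x.imI = 0 := by
    have := (mul_eq_zero.1 z1).resolve_left n1
    rw [pow_eq_zero_iff two_ne_zero, map_eq_zero] at this
    exact this
  have y2 : x.imJ = 0 := by
    have := (mul_eq_zero.1 z2).resolve_left (mul_ne_zero hq.ne' n2)
    rw [pow_eq_zero_iff two_ne_zero, map_eq_zero] at this
    exact this
  have y3 : x.imK = 0 := by
    have := (mul_eq_zero.1 z3).resolve_left (mul_ne_zero (mul_ne_zero hq.ne' n1) n2)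
    rw [pow_eq_zero_iff two_ne_zero, map_eq_zero] at this
    exact this
  ext
  · exact y0
  · exact y1
  · exact y2
  · exact y3

/-- F1b (637, 837): the torus. -/
theorem tor_mem (ho : HOdd a q) {x : SL1 (up L a) (q * up L b)}
    (hJ : ((x : (Qt (up L a) (q * up L b))ˣ) : Qt (up L a) (q * up L b)).imJ = 0)
    (hK : ((x : (Qt (up L a) (q * up L b))ˣ) : Qt (up L a) (q * up L b)).imK = 0)
    {g : OctL E a b c ≃ₗ[E] OctL E a b c}
    (hg : ∀ y : OctL E a b c, g y = shortFun ρ (psiL α q ((x : (Qt (up L a) (q * up L b))ˣ) :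
      Qt (up L a) (q * up L b))) y) : g ∈ RsI ρ σ ι α a b c q := by
  obtain ⟨u, b₁, hb₁, -, hram⟩ := H837.exists_u H ho
  have ht := H24.trip_u (a := a) (b := b) (c := c) hb₁
  have H₁ : HyI ρ σ ι α a b₁ b q := hyTripI H ht
  obtain ⟨s, hs⟩ := H837.exists_shortHom H
  obtain ⟨s₁, hs₁⟩ := H837.exists_shortHom H₁
  obtain ⟨T, hT0⟩ : ∃ T : GTI ρ σ ι α a b₁ b q →* GTI ρ σ ι α a b c q,
      ∀ (g : GTI ρ σ ι α a b₁ b q) (x : OctL E a b₁ b),
        (T g).1 (tripO E ht x) = tripO E ht (g.1 x) :=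
    ⟨(cjGI ρ σ ι α q ht).toMonoidHom, fun g x => cjE_apply _ _ _⟩
  have hgs : g = (s x).1 := by
    apply LinearEquiv.ext
    intro y
    rw [hg, hs]
  rw [hgs, mem_RsI]
  refine ⟨(s x).2, ?_⟩
  rw [mem_fres]
  intro N hN
  have hfi : N.FiniteIndex := ⟨hN⟩
  have hNc : N.normalCore.index ≠ 0 := (inferInstance : N.normalCore.FiniteIndex).index_ne_zero
  apply Subgroup.normalCore_le N
  refine D4T.H637.torus_abs hram (H837.aniso1 H) (H837.aniso1 H₁) s (T.comp s₁) N.normalCore hNc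
    ?_ x hJ hK
  intro t t' p r e1 e2 h
  have h0 : ∀ {b' c' : kˣ}, (ep α : OctL E a b' c') = ⟨⟨1 / 2, 1 / (2 * α), 0, 0⟩, 0⟩ := rfl
  have hT : ∀ x y : E, tripO E ht ⟨⟨x, y, 0, 0⟩, 0⟩ = ⟨⟨x, y, 0, 0⟩, 0⟩ := fun x y => by
    rw [tripO_apply]
    exact H24.emb_torus _ _ x y
  have h1 : (s t).1 (ep α) = (T.comp s₁ t').1 (ep α) := by
    rw [hs, e1, D4T.H637.psiL_torus, h0, D4T.H637.shortFun_torus]
    conv_rhs => rw [← hT]
    rw [MonoidHom.comp_apply, hT0, hs₁, e2, D4T.H637.psiL_torus, D4T.H637.shortFun_torus, hT]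
  have h2 : ((T.comp s₁ t')⁻¹ * s t).1 (ep α) = ep α := by
    rw [Subgroup.coe_mul, Subgroup.coe_inv, LinearEquiv.mul_apply, h1, ← LinearEquiv.mul_apply,
      inv_mul_cancel]
    rfl
  obtain ⟨h3, h4⟩ := mem_RsI.1 (autI_mem H ((T.comp s₁ t')⁻¹ * s t).2 h2)
  have h5 := mem_fres.1 h4 _ hNc
  have h6 := mul_mem h h5
  have h7 : T.comp s₁ t' * ((T.comp s₁ t')⁻¹ * s t) = s t := by group
  rw [← h7]
  exact h6

end arith

end Vale.Agent.P011.D4I
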