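import Vale.Agent.P011.D4I.H837.Dens

/-!
Block D4I: the local nonnorms of a quadratic extension of the ground field remain nonnorms at the
places of odd local degree.
-/

open NumberField IsDedekindDomain Topology
open WithZero

namespace Vale.Agent.P011.D4I.H837

open Vale.Agent.P011.Arith Vale.Agent.P011.MPQ Vale.Agent.P011.D4 Vale.Agent.P011.D4T

variable {k L E : Type} [Field k] [NumberField k] [Field L] [NumberField L] [Field E]
  [Algebra k L] [Algebra k E] [Algebra L E] [IsScalarTower k L E]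

/-- If the ground field is dense then local nonnorms remain nonnorms. -/
theorem odd_of_dens {v : HeightOneSpectrum (𝓞 k)} {w : HeightOneSpectrum (𝓞 L)}
    (hv : w.asIdeal.comap (algebraMap (𝓞 k) (𝓞 L)) = v.asIdeal)
    (hd : ∀ (y : L) {ε : Z0}, ε ≠ 0 → ∃ y' : k, w.valuation L (algebraMap k L y' - y) < ε)
    {a x : kˣ} (h : up L x ∈ NF (up L a) ⊔ LS (w.valuation L)) :
    x ∈ NF a ⊔ LS (v.valuation k) := by
  obtain ⟨n, ⟨y₀, y₁, hn⟩, l, ⟨z, hz⟩, hnl⟩ := Subgroup.mem_sup.mp h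
  have hdens : ∀ (y : L) {η : ℝ}, 0 < η → ∃ y' : k,
      plAbv (Sum.inl w) (algebraMap k L y' - y) < η := by
    intro y η hη
    obtain ⟨M, hM0, hM⟩ := (plAbv_nontrivial (Sum.inl w : Pl L)).exists_abv_lt_one
    obtain ⟨m, hm⟩ := exists_pow_lt_of_lt_one hη hM
    obtain ⟨y', hy'⟩ := hd y (ε := w.valuation L (M ^ m))
      ((Valuation.ne_zero_iff _).2 (pow_ne_zero m hM0))
    refine ⟨y', ((plAbv_lt w _ _).2 hy').trans ?_⟩
    rw [map_pow]
    exact hm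
  let _ : NormedField L := (plAbv (Sum.inl w : Pl L)).toNormedField
  have hnorm : ∀ x : L, ‖x‖ = plAbv (Sum.inl w : Pl L) x := fun x => rfl
  obtain ⟨A, hA⟩ : ∃ A : L, A = algebraMap k L a := ⟨_, rfl⟩
  obtain ⟨B, hB⟩ : ∃ B : L, B = algebraMap k L x := ⟨_, rfl⟩
  have hc : Continuous fun p : L × L × L => ‖B - (p.1 ^ 2 - A * p.2.1 ^ 2) * p.2.2 ^ 2‖ -
      ‖4 * ((p.1 ^ 2 - A * p.2.1 ^ 2) * p.2.2 ^ 2)‖ := by fun_prop
  have hn' : y₀ ^ 2 - A * y₁ ^ 2 = (n : L) := by rw [hA]; exact hn.symm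
  have e1 : B = n * l := by
    rw [hB, ← Units.val_mul, hnl]
    rfl
  have hnz : (n : L) * z ^ 2 ≠ 0 := mul_ne_zero n.ne_zero (pow_ne_zero 2 z.ne_zero)
  have h0 : (fun p : L × L × L => ‖B - (p.1 ^ 2 - A * p.2.1 ^ 2) * p.2.2 ^ 2‖ -
      ‖4 * ((p.1 ^ 2 - A * p.2.1 ^ 2) * p.2.2 ^ 2)‖) (y₀, y₁, (z : L)) < 0 := by
    change ‖B - (y₀ ^ 2 - A * y₁ ^ 2) * (z : L) ^ 2‖ -
      ‖4 * ((y₀ ^ 2 - A * y₁ ^ 2) * (z : L) ^ 2)‖ < 0
    rw [hn', sub_neg, hnorm, hnorm, plAbv_lt]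
    have e2 : B - (n : L) * (z : L) ^ 2 = ((l : L) / z ^ 2 - 1) * (n * z ^ 2) := by
      rw [e1]
      field_simp
    rw [e2, (w.valuation L).map_mul ((l : L) / z ^ 2 - 1) (n * z ^ 2),
      (w.valuation L).map_mul 4 (n * z ^ 2)]
    exact mul_lt_mul_of_pos_right hz (zero_lt_iff.2 ((Valuation.ne_zero_iff _).2 hnz))
  obtain ⟨η, hη, hnear⟩ := Metric.eventually_nhds_iff.mp
    (hc.continuousAt.eventually_lt_const h0)
  obtain ⟨Y₀, hY₀⟩ := hdens y₀ hη
  obtain ⟨Y₁, hY₁⟩ := hdens y₁ hη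
  obtain ⟨Z, hZ⟩ := hdens (z : L) hη
  have h4 := hnear (y := (algebraMap k L Y₀, algebraMap k L Y₁, algebraMap k L Z)) (by
    rw [Prod.dist_eq, Prod.dist_eq, dist_eq_norm, dist_eq_norm, dist_eq_norm]
    exact max_lt hY₀ (max_lt hY₁ hZ))
  have h5 : v.valuation k ((x : k) - (Y₀ ^ 2 - a * Y₁ ^ 2) * Z ^ 2) <
      v.valuation k (4 * ((Y₀ ^ 2 - a * Y₁ ^ 2) * Z ^ 2)) := by
    rw [← val_lt_val_iff hv, ← plAbv_lt, ← hnorm, ← hnorm]
    have e2 : algebraMap k L ((x : k) - (Y₀ ^ 2 - a * Y₁ ^ 2) * Z ^ 2) =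
        B - ((algebraMap k L Y₀) ^ 2 - A * (algebraMap k L Y₁) ^ 2) *
          (algebraMap k L Z) ^ 2 := by
      rw [hA, hB]
      simp
    have e3 : algebraMap k L (4 * ((Y₀ ^ 2 - a * Y₁ ^ 2) * Z ^ 2)) =
        4 * (((algebraMap k L Y₀) ^ 2 - A * (algebraMap k L Y₁) ^ 2) *
          (algebraMap k L Z) ^ 2) := by
      rw [hA, map_mul, map_ofNat]
      simp
    rw [e2, e3]
    exact sub_neg.mp h4
  have h6 : (Y₀ ^ 2 - a * Y₁ ^ 2) * Z ^ 2 ≠ 0 := by
    intro h7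
    rw [h7, mul_zero, map_zero] at h5
    exact not_lt_zero h5
  have h7 : Y₀ ^ 2 - (a : k) * Y₁ ^ 2 ≠ 0 := left_ne_zero_of_mul h6
  have h8 : Z ≠ 0 := fun h9 => h6 (by rw [h9]; ring)
  have h9 : x = Units.mk0 _ h7 * (x * (Units.mk0 _ h7)⁻¹) := by
    rw [mul_comm x, mul_inv_cancel_left]
  rw [h9]
  refine Subgroup.mul_mem_sup ⟨Y₀, Y₁, rfl⟩ ⟨Units.mk0 Z h8, ?_⟩
  have e4 : ((x * (Units.mk0 _ h7)⁻¹ : kˣ) : k) / ((Units.mk0 Z h8 : kˣ) : k) ^ 2 - 1 =
      ((x : k) - (Y₀ ^ 2 - a * Y₁ ^ 2) * Z ^ 2) / ((Y₀ ^ 2 - a * Y₁ ^ 2) * Z ^ 2) := by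
    rw [Units.val_mul, Units.val_inv_eq_inv_val, Units.val_mk0, Units.val_mk0]
    field_simp
  rw [e4, map_div₀, div_lt_iff₀ (zero_lt_iff.2 ((Valuation.ne_zero_iff _).2 h6)), ← map_mul]
  exact h5

variable {ρ σ ι : E ≃ₐ[k] E} {α : E} {a b c : kˣ} {q : Lˣ} (H : HyI ρ σ ι α a b c q)

include H

/-- The case of a place which is alone over the ground field. -/
theorem odd_of_uni {v : HeightOneSpectrum (𝓞 k)} {w : HeightOneSpectrum (𝓞 L)}
    (hu : ∀ w2 : HeightOneSpectrum (𝓞 L),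
      w2.asIdeal.comap (algebraMap (𝓞 k) (𝓞 L)) = v.asIdeal → w2 = w)
    {d x : kˣ} (h : up L x ∈ NF (up L d) ⊔ LS (w.valuation L)) :
    x ∈ NF d ⊔ LS (v.valuation k) := by
  obtain ⟨n, ⟨y₀, y₁, hn⟩, l, ⟨z, hz⟩, hnl⟩ := Subgroup.mem_sup.mp h
  obtain ⟨X, Y, hXY⟩ := norm_NF H (d : k) y₀ y₁
  have hn' : y₀ ^ 2 - algebraMap k L d * y₁ ^ 2 = (n : L) := hn.symm
  rw [hn'] at hXY
  have hN0 : X ^ 2 - (d : k) * Y ^ 2 ≠ 0 := by
    intro h0
    rw [h0, map_zero] at hXY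
    have : algebraMap L E (n : L) * ρ (algebraMap L E (n : L)) *
      ρ (ρ (algebraMap L E (n : L))) ≠ 0 := by simp
    exact this hXY.symm
  obtain ⟨Z, hZ⟩ := exists_sym3 H (z : L)
  have hZ0 : Z ≠ 0 := by
    rintro rfl
    rw [map_zero] at hZ
    have : algebraMap L E (z : L) * ρ (algebraMap L E (z : L)) *
      ρ (ρ (algebraMap L E (z : L))) ≠ 0 := by simp
    exact this hZ.symm
  obtain ⟨η, hη⟩ : ∃ η : L, η = ((l : L) / z ^ 2 - 1) / 4 := ⟨_, rfl⟩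
  have hη1 : w.valuation L η < 1 := by
    rw [hη, map_div₀, div_lt_iff₀ (zero_lt_iff.2 (val_four_ne _)), one_mul]
    exact hz
  have hlη : (l : L) / z ^ 2 = 1 + 4 * η := by rw [hη]; ring
  obtain ⟨t1, ht1⟩ := exists_sym1 H η
  obtain ⟨t2, ht2⟩ := exists_sym2 H η
  obtain ⟨t3, ht3⟩ := exists_sym3 H η
  obtain ⟨v1, v2, v3⟩ := val_sym_lt hu hη1 ht1 ht2 ht3
  obtain ⟨nu, hnu⟩ : ∃ nu : kˣ, (nu : k) = X ^ 2 - d * Y ^ 2 := ⟨Units.mk0 _ hN0, rfl⟩
  have h1 : x ^ 3 * nu⁻¹ ∈ LS (v.valuation k) := by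
    refine ⟨Units.mk0 Z hZ0, ?_⟩
    have e : ((x ^ 3 * nu⁻¹ : kˣ) : k) / ((Units.mk0 Z hZ0 : kˣ) : k) ^ 2 - 1 =
        4 * t1 + (16 * t2 + 64 * t3) := by
      apply (algebraMap k E).injective
      have e1 : algebraMap k E (x : k) = algebraMap L E n * algebraMap L E l := by
        rw [← map_mul, ← Units.val_mul, hnl]
        exact IsScalarTower.algebraMap_apply k L E _
      have e2 : algebraMap k E (x : k) = ρ (algebraMap L E n) * ρ (algebraMap L E l) := by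
        rw [← map_mul, ← e1, AlgEquiv.commutes]
      have e3 : algebraMap k E (x : k) = ρ (ρ (algebraMap L E n)) * ρ (ρ (algebraMap L E l)) := by
        rw [← map_mul, ← map_mul, ← e1, AlgEquiv.commutes, AlgEquiv.commutes]
      have e4 : algebraMap k E (x : k) ^ 3 = (algebraMap L E n * algebraMap L E l) *
          (ρ (algebraMap L E n) * ρ (algebraMap L E l)) *
          (ρ (ρ (algebraMap L E n)) * ρ (ρ (algebraMap L E l))) := by
        rw [← e1, ← e2, ← e3]; ring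
      have f1 : algebraMap L E l / (algebraMap L E z) ^ 2 = 1 + 4 * algebraMap L E η := by
        rw [← map_pow, ← map_div₀, hlη, map_add, map_mul, map_one, map_ofNat]
      have f2 : ρ (algebraMap L E l) / (ρ (algebraMap L E z)) ^ 2 =
          1 + 4 * ρ (algebraMap L E η) := by
        rw [← map_pow, ← map_div₀, f1, map_add, map_mul, map_one, map_ofNat]
      have f3 : ρ (ρ (algebraMap L E l)) / (ρ (ρ (algebraMap L E z))) ^ 2 =
          1 + 4 * ρ (ρ (algebraMap L E η)) := by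
        rw [← map_pow, ← map_div₀, f2, map_add, map_mul, map_one, map_ofNat]
      have hn0 : algebraMap L E (n : L) ≠ 0 := by simp
      have hn1 : ρ (algebraMap L E (n : L)) ≠ 0 := by simp
      have hn2 : ρ (ρ (algebraMap L E (n : L))) ≠ 0 := by simp
      have hz0 : algebraMap L E (z : L) ≠ 0 := by simp
      have hz1 : ρ (algebraMap L E (z : L)) ≠ 0 := by simp
      have hz2 : ρ (ρ (algebraMap L E (z : L))) ≠ 0 := by simp
      have e5 : algebraMap k E (((x ^ 3 * nu⁻¹ : kˣ) : k) /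
          ((Units.mk0 Z hZ0 : kˣ) : k) ^ 2 - 1) =
          (algebraMap L E l / (algebraMap L E z) ^ 2) *
          (ρ (algebraMap L E l) / (ρ (algebraMap L E z)) ^ 2) *
          (ρ (ρ (algebraMap L E l)) / (ρ (ρ (algebraMap L E z))) ^ 2) - 1 := by
        rw [map_sub, map_one, map_div₀, Units.val_mul, Units.val_inv_eq_inv_val, map_mul,
          map_inv₀, Units.val_pow_eq_pow_val, map_pow, map_pow, hnu, Units.val_mk0,
          hXY, hZ, e4]
        field_simp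
      rw [e5, f1, f2, f3, map_add, map_add, map_mul, map_mul, map_mul, map_ofNat, map_ofNat,
        map_ofNat, ht1, ht2, ht3]
      ring
    rw [e]
    have h4 : v.valuation k 4 ≤ 1 := val_four_le _
    have h40 : 0 < v.valuation k 4 := zero_lt_iff.2 (val_four_ne _)
    have key : ∀ t : k, v.valuation k t < 1 → v.valuation k (4 * t) < v.valuation k 4 := by
      intro t ht
      rw [map_mul]
      calc _ < v.valuation k 4 * 1 := mul_lt_mul_of_pos_left ht h40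
        _ = _ := mul_one _
    have key2 : ∀ t : k, v.valuation k t < 1 → v.valuation k (4 * t) < 1 := fun t ht =>
      lt_of_lt_of_le (key t ht) h4
    refine Valuation.map_add_lt _ (key _ v1) (Valuation.map_add_lt _ ?_ ?_)
    · have : (16 : k) * t2 = 4 * (4 * t2) := by ring
      rw [this]
      exact key _ (key2 _ v2)
    · have : (64 : k) * t3 = 4 * (4 * (4 * t3)) := by ring
      rw [this]
      exact key _ (key2 _ (key2 _ v3))
  have h2 : x = nu * (x ^ 3 * nu⁻¹ * (x⁻¹) ^ 2) := by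
    have : nu * (x ^ 3 * nu⁻¹ * (x⁻¹) ^ 2) = (nu * nu⁻¹) * (x ^ 3 * (x⁻¹) ^ 2) := by
      ac_rfl
    rw [this, mul_inv_cancel, one_mul, pow_succ' x 2, mul_assoc, ← mul_pow, mul_inv_cancel,
      one_pow, mul_one]
  rw [h2]
  exact Subgroup.mul_mem_sup ⟨X, Y, hnu⟩ (mul_mem h1 (sq_mem_LS _))

/-- The local nonnorms of a quadratic extension of the ground field remain nonnorms at the places
of odd local degree. -/
theorem odd_local {v : HeightOneSpectrum (𝓞 k)} {w : HeightOneSpectrum (𝓞 L)}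
    (hw : w.asIdeal.comap (algebraMap (𝓞 k) (𝓞 L)) = v.asIdeal) (hO : OddP w v) {d x : kˣ}
    (h : up L x ∈ NF (up L d) ⊔ LS (w.valuation L)) : x ∈ NF d ⊔ LS (v.valuation k) := by
  by_cases hu : ∀ w2 : HeightOneSpectrum (𝓞 L),
      w2.asIdeal.comap (algebraMap (𝓞 k) (𝓞 L)) = v.asIdeal → w2 = w
  · exact odd_of_uni H hu h
  · push Not at hu
    obtain ⟨w2, hw2, hne⟩ := hu
    exact odd_of_dens hw (fun y {ε} hε => dens_of_two H hw hw2 hne hO y hε) h

end Vale.Agent.P011.D4I.H837
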