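import Vale.Agent.P011.D4I.Defs
import Vale.Agent.P011.Arith.Quad

/-!
Block D4I: the conjugates of an element of the cubic field at a place which is alone over a place
of the ground field.
-/

open NumberField IsDedekindDomain

namespace Vale.Agent.P011.D4I.H837

open Vale.Agent.P011.Arith Vale.Agent.P011.MPQ Vale.Agent.P011.D4 Vale.Agent.P011.D4T

section sym

variable {k L E : Type} [Field k] [Field L] [Field E] [Algebra k L] [Algebra k E] [Algebra L E]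
  [IsScalarTower k L E] {ρ σ ι : E ≃ₐ[k] E} {α : E} {a b c : kˣ} {q : Lˣ}
  (H : HyI ρ σ ι α a b c q)

include H

omit [IsScalarTower k L E] in
theorem i1 (t : L) : ι (ρ (algebraMap L E t)) = ρ (algebraMap L E t) := by
  rw [H.ιρ, H.ιL, H.ρ3]

omit [IsScalarTower k L E] in
theorem i2 (t : L) : ι (ρ (ρ (algebraMap L E t))) = algebraMap L E t := by
  rw [H.ιρ, H.ιρ, H.ιL, H.ρ3, H.ρ3]

omit [IsScalarTower k L E] in
theorem s1 (t : L) : σ (ρ (algebraMap L E t)) = ρ (algebraMap L E t) := by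
  rw [H.comm, H.σL]

omit [IsScalarTower k L E] in
theorem s2 (t : L) : σ (ρ (ρ (algebraMap L E t))) = ρ (ρ (algebraMap L E t)) := by
  rw [H.comm, H.comm, H.σL]

omit [IsScalarTower k L E] in
theorem exists_sym1 (z : L) : ∃ t : k, algebraMap k E t = algebraMap L E z +
    ρ (algebraMap L E z) + ρ (ρ (algebraMap L E z)) := by
  refine H.fixk _ ?_ ?_ ?_
  · rw [map_add, map_add, H.ρ3]; ring
  · rw [map_add, map_add, s1 H, s2 H, H.σL]
  · rw [map_add, map_add, i1 H, i2 H, H.ιL]; ring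

omit [IsScalarTower k L E] in
theorem exists_sym2 (z : L) : ∃ t : k, algebraMap k E t = algebraMap L E z *
    ρ (algebraMap L E z) + ρ (algebraMap L E z) * ρ (ρ (algebraMap L E z)) +
    ρ (ρ (algebraMap L E z)) * algebraMap L E z := by
  refine H.fixk _ ?_ ?_ ?_
  · simp only [map_add, map_mul]
    rw [H.ρ3]; ring
  · simp only [map_add, map_mul]
    rw [s1 H, s2 H, H.σL]
  · simp only [map_add, map_mul]
    rw [i1 H, i2 H, H.ιL]; ring

omit [IsScalarTower k L E] in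
theorem exists_sym3 (z : L) : ∃ t : k, algebraMap k E t = algebraMap L E z *
    ρ (algebraMap L E z) * ρ (ρ (algebraMap L E z)) := by
  refine H.fixk _ ?_ ?_ ?_
  · simp only [map_mul]
    rw [H.ρ3]; ring
  · simp only [map_mul]
    rw [s1 H, s2 H, H.σL]
  · simp only [map_mul]
    rw [i1 H, i2 H, H.ιL]; ring

/-- The norm of a norm. -/
theorem norm_NF (d : k) (y₀ y₁ : L) : ∃ X Y : k,
      algebraMap k E (X ^ 2 - d * Y ^ 2) =
        algebraMap L E (y₀ ^ 2 - algebraMap k L d * y₁ ^ 2) *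
        ρ (algebraMap L E (y₀ ^ 2 - algebraMap k L d * y₁ ^ 2)) *
        ρ (ρ (algebraMap L E (y₀ ^ 2 - algebraMap k L d * y₁ ^ 2))) := by
  obtain ⟨p0, hp0⟩ : ∃ t, t = algebraMap L E y₀ := ⟨_, rfl⟩
  obtain ⟨p1, hp1⟩ : ∃ t, t = algebraMap L E y₁ := ⟨_, rfl⟩
  have a0 := H.σL y₀
  have b0 := s1 H y₀
  have c0 := s2 H y₀
  have d0 := H.ιL y₀
  have e0 := i1 H y₀
  have f0 := i2 H y₀
  have a1 := H.σL y₁
  have b1 := s1 H y₁
  have c1 := s2 H y₁
  have d1 := H.ιL y₁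
  have e1 := i1 H y₁
  have f1 := i2 H y₁
  rw [← hp0] at a0 b0 c0 d0 e0 f0
  rw [← hp1] at a1 b1 c1 d1 e1 f1
  obtain ⟨X, hX⟩ := H.fixk (p0 * ρ p0 * ρ (ρ p0) +
    algebraMap k E d * (p0 * ρ p1 * ρ (ρ p1) + p1 * ρ p0 * ρ (ρ p1) + p1 * ρ p1 * ρ (ρ p0)))
    (by simp only [map_add, map_mul, AlgEquiv.commutes]; rw [H.ρ3, H.ρ3]; ring)
    (by simp only [map_add, map_mul, AlgEquiv.commutes]; rw [a0, b0, c0, a1, b1, c1])
    (by simp only [map_add, map_mul, AlgEquiv.commutes]; rw [d0, e0, f0, d1, e1, f1]; ring)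
  obtain ⟨Y, hY⟩ := H.fixk (p1 * ρ p0 * ρ (ρ p0) + p0 * ρ p1 * ρ (ρ p0) +
    p0 * ρ p0 * ρ (ρ p1) + algebraMap k E d * (p1 * ρ p1 * ρ (ρ p1)))
    (by simp only [map_add, map_mul, AlgEquiv.commutes]; rw [H.ρ3, H.ρ3]; ring)
    (by simp only [map_add, map_mul, AlgEquiv.commutes]; rw [a0, b0, c0, a1, b1, c1])
    (by simp only [map_add, map_mul, AlgEquiv.commutes]; rw [d0, e0, f0, d1, e1, f1]; ring)
  refine ⟨X, Y, ?_⟩
  have hd : algebraMap L E (algebraMap k L d) = algebraMap k E d :=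
    (IsScalarTower.algebraMap_apply k L E d).symm
  rw [map_sub, map_mul, map_pow, map_pow, hX, hY, map_sub, map_mul, map_pow, map_pow, ← hp0,
    ← hp1, hd]
  simp only [map_sub, map_mul, map_pow, AlgEquiv.commutes]
  ring

end sym

section coe

variable {F : Type} [Field F]

theorem coeA (x y : 𝓞 F) : ((x + y : 𝓞 F) : F) = (x : F) + (y : F) := rfl

theorem coeM (x y : 𝓞 F) : ((x * y : 𝓞 F) : F) = (x : F) * (y : F) := rfl

end coe

section ideal

variable {k L E : Type} [Field k] [NumberField k] [Field L] [NumberField L] [Field E]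
  [Algebra k L] [Algebra k E] [Algebra L E] [IsScalarTower k L E]

omit [NumberField k] [NumberField L] in
/-- A prime over a place which has only one extension to the cubic field. -/
theorem mem_of_uni {w : HeightOneSpectrum (𝓞 L)} {v : HeightOneSpectrum (𝓞 k)}
    (hu : ∀ w2 : HeightOneSpectrum (𝓞 L),
      w2.asIdeal.comap (algebraMap (𝓞 k) (𝓞 L)) = v.asIdeal → w2 = w)
    {P : Ideal (𝓞 E)} (hP : P.IsPrime)
    (hPv : P.comap (algebraMap (𝓞 k) (𝓞 E)) = v.asIdeal) {z : 𝓞 L} (hz : z ∈ w.asIdeal) :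
    algebraMap (𝓞 L) (𝓞 E) z ∈ P := by
  have h1 : (P.comap (algebraMap (𝓞 L) (𝓞 E))).comap (algebraMap (𝓞 k) (𝓞 L)) = v.asIdeal := by
    rw [Ideal.comap_comap, ← IsScalarTower.algebraMap_eq, hPv]
  have h2 : (P.comap (algebraMap (𝓞 L) (𝓞 E))) ≠ ⊥ := by
    intro h
    rw [h] at h1
    apply v.ne_bot
    rw [← h1, eq_bot_iff]
    intro x hx
    rw [Ideal.mem_comap, Ideal.mem_bot] at hx
    rw [Ideal.mem_bot]
    exact (FaithfulSMul.algebraMap_injective (𝓞 k) (𝓞 L)) (by rw [hx, map_zero])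
  have h3 : (P.comap (algebraMap (𝓞 L) (𝓞 E))).IsPrime := Ideal.comap_isPrime _ _
  have h4 := hu ⟨P.comap (algebraMap (𝓞 L) (𝓞 E)), h3, h2⟩ h1
  rw [← h4] at hz
  exact hz

/-- The automorphism of the ring of integers. -/
noncomputable def gE (ρ : E ≃ₐ[k] E) : 𝓞 E →+* 𝓞 E :=
  (RingOfIntegers.mapRingEquiv (ρ : E ≃+* E) : 𝓞 E ≃+* 𝓞 E)

omit [NumberField k] in
theorem coe_gE (ρ : E ≃ₐ[k] E) (x : 𝓞 E) : ((gE ρ x : 𝓞 E) : E) = ρ (x : E) := rfl

omit [NumberField k] in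
theorem gE_comap (ρ : E ≃ₐ[k] E) (P : Ideal (𝓞 E)) :
    (P.comap (gE ρ)).comap (algebraMap (𝓞 k) (𝓞 E)) = P.comap (algebraMap (𝓞 k) (𝓞 E)) := by
  ext x
  rw [Ideal.mem_comap, Ideal.mem_comap, Ideal.mem_comap]
  have e : gE ρ (algebraMap (𝓞 k) (𝓞 E) x) = algebraMap (𝓞 k) (𝓞 E) x := by
    apply RingOfIntegers.ext
    rw [coe_gE]
    exact ρ.commutes (x : k)
  rw [e]

omit [NumberField k] [NumberField L] in
theorem mem_of_uni' {w : HeightOneSpectrum (𝓞 L)} {v : HeightOneSpectrum (𝓞 k)}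
    (hu : ∀ w2 : HeightOneSpectrum (𝓞 L),
      w2.asIdeal.comap (algebraMap (𝓞 k) (𝓞 L)) = v.asIdeal → w2 = w)
    {P : Ideal (𝓞 E)} (hP : P.IsPrime)
    (hPv : P.comap (algebraMap (𝓞 k) (𝓞 E)) = v.asIdeal) (ρ : E ≃ₐ[k] E)
    {z : 𝓞 L} (hz : z ∈ w.asIdeal) :
    gE ρ (algebraMap (𝓞 L) (𝓞 E) z) ∈ P ∧ gE ρ (gE ρ (algebraMap (𝓞 L) (𝓞 E) z)) ∈ P := by
  constructor
  · have h3 : (P.comap (gE ρ)).IsPrime := Ideal.comap_isPrime _ _
    exact mem_of_uni hu h3 (by rw [gE_comap, hPv]) hz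
  · have h3 : (P.comap (gE ρ)).IsPrime := Ideal.comap_isPrime _ _
    have h4 : ((P.comap (gE ρ)).comap (gE ρ)).IsPrime := Ideal.comap_isPrime _ _
    exact mem_of_uni hu h4 (by rw [gE_comap, gE_comap, hPv]) hz

omit [NumberField k] in
/-- Denominators prime to `v`. -/
theorem exists_den {w : HeightOneSpectrum (𝓞 L)} {v : HeightOneSpectrum (𝓞 k)}
    (hu : ∀ w2 : HeightOneSpectrum (𝓞 L),
      w2.asIdeal.comap (algebraMap (𝓞 k) (𝓞 L)) = v.asIdeal → w2 = w)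
    {η : L} (hη : w.valuation L η ≤ 1) :
    ∃ (D : 𝓞 k) (n : 𝓞 L), D ∉ v.asIdeal ∧ algebraMap k L (D : k) * η = (n : L) := by
  obtain ⟨I, hI⟩ : ∃ I : Ideal (𝓞 L), ∀ y, y ∈ I ↔ ∃ n : 𝓞 L, (y : L) * η = (n : L) := by
    refine ⟨{ carrier := {y | ∃ n : 𝓞 L, (y : L) * η = (n : L)}
              add_mem' := ?_
              zero_mem' := ⟨0, by simp⟩
              smul_mem' := ?_ }, fun y => Iff.rfl⟩
    · rintro y y' ⟨n, hn⟩ ⟨n', hn'⟩
      refine ⟨n + n', ?_⟩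
      rw [coeA, coeA, add_mul, hn, hn']
    · rintro r y ⟨n, hn⟩
      refine ⟨r * n, ?_⟩
      rw [smul_eq_mul, coeM, coeM, mul_assoc, hn]
  by_contra hcon
  have hle : I.comap (algebraMap (𝓞 k) (𝓞 L)) ≤ v.asIdeal := by
    intro D hD
    by_contra hDv
    obtain ⟨n, hn⟩ := (hI _).1 (Ideal.mem_comap.1 hD)
    exact hcon ⟨D, n, hDv, hn⟩
  obtain ⟨Q, hQI, hQ, hQv⟩ := Ideal.exists_ideal_over_prime_of_isIntegral v.asIdeal I hle
  have h2 : Q ≠ ⊥ := by
    intro h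
    rw [h] at hQv
    apply v.ne_bot
    rw [← hQv, eq_bot_iff]
    intro x hx
    rw [Ideal.mem_comap, Ideal.mem_bot] at hx
    rw [Ideal.mem_bot]
    exact (FaithfulSMul.algebraMap_injective (𝓞 k) (𝓞 L)) (by rw [hx, map_zero])
  have h4 := hu ⟨Q, hQ, h2⟩ hQv
  obtain ⟨n, ⟨d, hd⟩, hnd⟩ := w.exists_primeCompl_mul_eq_of_integer η hη
  apply hd
  rw [← h4]
  apply hQI
  rw [hI]
  exact ⟨n, by rw [mul_comm]; exact hnd⟩

end ideal

section main

variable {k L E : Type} [Field k] [NumberField k] [Field L] [NumberField L] [Field E]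
  [Algebra k L] [Algebra k E] [Algebra L E] [IsScalarTower k L E] {ρ : E ≃ₐ[k] E}

omit [NumberField k] in
/-- An element of `k` whose image in `E` is integral. -/
theorem exists_int {t : k} {T : 𝓞 E} (h : algebraMap k E t = (T : E)) :
    ∃ t' : 𝓞 k, (t' : k) = t ∧ algebraMap (𝓞 k) (𝓞 E) t' = T := by
  have h1 : IsIntegral ℤ (algebraMap k E t) := by rw [h]; exact T.2
  have h2 : IsIntegral ℤ t := (isIntegral_algebraMap_iff (algebraMap k E).injective).1 h1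
  refine ⟨⟨t, h2⟩, rfl, ?_⟩
  apply RingOfIntegers.ext
  exact h

/-- The elementary symmetric functions of the conjugates of an element of the maximal ideal. -/
theorem val_sym_lt {w : HeightOneSpectrum (𝓞 L)} {v : HeightOneSpectrum (𝓞 k)}
    (hu : ∀ w2 : HeightOneSpectrum (𝓞 L),
      w2.asIdeal.comap (algebraMap (𝓞 k) (𝓞 L)) = v.asIdeal → w2 = w)
    {η : L} (hη : w.valuation L η < 1) {t1 t2 t3 : k}
    (h1 : algebraMap k E t1 = algebraMap L E η + ρ (algebraMap L E η) + ρ (ρ (algebraMap L E η)))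
    (h2 : algebraMap k E t2 = algebraMap L E η * ρ (algebraMap L E η) +
      ρ (algebraMap L E η) * ρ (ρ (algebraMap L E η)) +
      ρ (ρ (algebraMap L E η)) * algebraMap L E η)
    (h3 : algebraMap k E t3 = algebraMap L E η * ρ (algebraMap L E η) *
      ρ (ρ (algebraMap L E η))) :
    v.valuation k t1 < 1 ∧ v.valuation k t2 < 1 ∧ v.valuation k t3 < 1 := by
  obtain ⟨D, n, hD, hn⟩ := exists_den hu hη.le
  have hDw : w.valuation L (algebraMap k L (D : k)) ≤ 1 :=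
    w.valuation_le_one (algebraMap (𝓞 k) (𝓞 L) D)
  have hnw : n ∈ w.asIdeal := by
    rw [← w.valuation_lt_one_iff_mem (K := L)]
    change w.valuation L (n : L) < 1
    rw [← hn, map_mul]
    calc _ ≤ 1 * w.valuation L η := mul_le_mul_left hDw _
      _ < 1 := by rwa [one_mul]
  obtain ⟨P, -, hP, hPv⟩ := Ideal.exists_ideal_over_prime_of_isIntegral (S := 𝓞 E) v.asIdeal ⊥ (by
    intro x hx
    rw [Ideal.mem_comap, Ideal.mem_bot] at hx
    have : x = 0 := (FaithfulSMul.algebraMap_injective (𝓞 k) (𝓞 E)) (by rw [hx, map_zero])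
    rw [this]
    exact Ideal.zero_mem _)
  have m0 := mem_of_uni hu hP hPv hnw
  obtain ⟨m1, m2⟩ := mem_of_uni' hu hP hPv ρ hnw
  have hDE : algebraMap L E (algebraMap k L (D : k)) = algebraMap k E (D : k) :=
    (IsScalarTower.algebraMap_apply k L E _).symm
  have c0 : ((algebraMap (𝓞 L) (𝓞 E) n : 𝓞 E) : E) = algebraMap k E D * algebraMap L E η := by
    change algebraMap L E (n : L) = _
    rw [← hn, map_mul, hDE]
  have c1 : ((gE ρ (algebraMap (𝓞 L) (𝓞 E) n) : 𝓞 E) : E) =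
      algebraMap k E D * ρ (algebraMap L E η) := by
    rw [coe_gE, c0, map_mul, AlgEquiv.commutes]
  have c2 : ((gE ρ (gE ρ (algebraMap (𝓞 L) (𝓞 E) n)) : 𝓞 E) : E) =
      algebraMap k E D * ρ (ρ (algebraMap L E η)) := by
    rw [coe_gE, c1, map_mul, AlgEquiv.commutes]
  have hvD : v.valuation k (D : k) = 1 := by
    refine le_antisymm (v.valuation_le_one D) (not_lt.1 fun h => hD ?_)
    exact (v.valuation_lt_one_iff_mem (K := k) D).1 h
  have key : ∀ {t : k} {T : 𝓞 E}, algebraMap k E t = (T : E) → T ∈ P → v.valuation k t < 1 := by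
    intro t T hT hTP
    obtain ⟨t', rfl, ht'⟩ := exists_int hT
    rw [← ht', ← Ideal.mem_comap, hPv] at hTP
    exact (v.valuation_lt_one_iff_mem (K := k) t').2 hTP
  refine ⟨?_, ?_, ?_⟩
  · have h : v.valuation k ((D : k) * t1) < 1 := by
      refine key (T := algebraMap (𝓞 L) (𝓞 E) n + gE ρ (algebraMap (𝓞 L) (𝓞 E) n) +
        gE ρ (gE ρ (algebraMap (𝓞 L) (𝓞 E) n))) ?_ (add_mem (add_mem m0 m1) m2)
      rw [coeA, coeA, c0, c1, c2, map_mul, h1]
      ring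
    rwa [map_mul, hvD, one_mul] at h
  · have h : v.valuation k ((D : k) ^ 2 * t2) < 1 := by
      refine key (T := algebraMap (𝓞 L) (𝓞 E) n * gE ρ (algebraMap (𝓞 L) (𝓞 E) n) +
        gE ρ (algebraMap (𝓞 L) (𝓞 E) n) * gE ρ (gE ρ (algebraMap (𝓞 L) (𝓞 E) n)) +
        gE ρ (gE ρ (algebraMap (𝓞 L) (𝓞 E) n)) * algebraMap (𝓞 L) (𝓞 E) n) ?_
        (add_mem (add_mem (Ideal.mul_mem_left _ _ m1) (Ideal.mul_mem_left _ _ m2))
          (Ideal.mul_mem_left _ _ m0))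
      rw [coeA, coeA, coeM, coeM, coeM, c0, c1, c2, map_mul, map_pow, h2]
      ring
    rwa [map_mul, map_pow, hvD, one_pow, one_mul] at h
  · have h : v.valuation k ((D : k) ^ 3 * t3) < 1 := by
      refine key (T := algebraMap (𝓞 L) (𝓞 E) n * gE ρ (algebraMap (𝓞 L) (𝓞 E) n) *
        gE ρ (gE ρ (algebraMap (𝓞 L) (𝓞 E) n))) ?_ (Ideal.mul_mem_left _ _ m2)
      rw [coeM, coeM, c0, c1, c2, map_mul, map_pow, h3]
      ring
    rwa [map_mul, map_pow, hvD, one_pow, one_mul] at h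

end main

end Vale.Agent.P011.D4I.H837
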